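import Vale.Agent.P259.H615.Defs
import Mathlib.CategoryTheory.MorphismProperty.Retract
import Mathlib.CategoryTheory.MorphismProperty.LiftingProperty
import Mathlib.Analysis.InnerProductSpace.PiL2

/-!
Definitions for the semi-model structure on `∞`-groupoids and the Quillen equivalence with spaces.
-/

open CategoryTheory

namespace Vale.Agent.P259.H615

open StmtB Theta0

section

variable {K : Type 1} [Category.{0} K]

/-- Cofibrant objects, when `F` is the class of trivial fibrations. -/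
def cofib (F : MorphismProperty K) : ObjectProperty K := fun X =>
  ∀ {A B : K} (p : A ⟶ B), F p → ∀ f : X ⟶ B, ∃ g, g ≫ p = f

/-- `W` and `F` are the weak equivalences and the fibrations of a left semi-model structure. The
cofibrations are the maps with the left lifting property with respect to `F ⊓ W`. -/
structure IsSemiModel (W F : MorphismProperty K) : Prop where
  lim : Limits.HasLimits K
  colim : Limits.HasColimits K
  two : W.HasTwoOutOfThreeProperty
  retract : W.IsStableUnderRetracts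
  fib : F = F.llp.rlp
  cof : (F ⊓ W) = (F ⊓ W).llp.rlp
  lift : ∀ {A B : K} (i : A ⟶ B), cofib (F ⊓ W) A → (F.llp i ↔ (F ⊓ W).llp i ∧ W i)
  fac : ∀ {X Y : K} (f : X ⟶ Y), ∃ (Z : K) (i : X ⟶ Z) (p : Z ⟶ Y), F.llp i ∧ F p ∧ i ≫ p = f
  fac' : ∀ {X Y : K} (f : X ⟶ Y),
    ∃ (Z : K) (i : X ⟶ Z) (p : Z ⟶ Y), (F ⊓ W).llp i ∧ (F ⊓ W) p ∧ i ≫ p = f

/-- `R` is the right adjoint of a Quillen equivalence, for the weak equivalences `W`, `V` and the
fibrations `F`, `E` (all the objects are fibrant). -/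
structure IsQuillenEquiv {L : Type 1} [Category.{0} L] (R : K ⥤ L) (W F : MorphismProperty K)
    (V E : MorphismProperty L) : Prop where
  fib : F ≤ E.inverseImage R
  triv : F ⊓ W ≤ (E ⊓ V).inverseImage R
  adj : ∃ (G : L ⥤ K) (a : G ⊣ R), ∀ X : L, cofib (E ⊓ V) X → ∀ (Y : K) (f : G.obj X ⟶ Y),
    W f ↔ V (a.homEquiv X Y f)

end

section

variable {Q : Type} [SmallCategory Q] (J : Glob Q)

/-- Fibrations of `∞`-groupoids: the right lifting property with respect to the source maps
`D_n ⟶ D_{n+1}`. -/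
def gfib : MorphismProperty (Gpd J) := fun X Y f =>
  ∀ n (u : yoneda.obj (J.o (disc n)) ⟶ X.obj) (w : yoneda.obj (J.o (disc n.succ)) ⟶ Y.obj),
    yoneda.map (J.s (.face false n.lt_succ_self)) ≫ w = u ≫ f.hom →
      ∃ v, yoneda.map (J.s (.face false n.lt_succ_self)) ≫ v = u ∧ v ≫ f.hom = w

/-- Trivial fibrations of `∞`-groupoids: the right lifting property with respect to the
inclusions of the spheres `∂D_n ⟶ D_n`. -/
def gtriv : MorphismProperty (Gpd J) := fun X Y f =>
  (∀ w : yoneda.obj (J.o (disc 0)) ⟶ Y.obj, ∃ v, v ≫ f.hom = w) ∧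
  ∀ n (u : Bool → (yoneda.obj (J.o (disc n)) ⟶ X.obj))
    (w : yoneda.obj (J.o (disc n.succ)) ⟶ Y.obj),
    (∀ ι {j} (lt : j < n), yoneda.map (J.s (.face ι lt)) ≫ u false =
      yoneda.map (J.s (.face ι lt)) ≫ u true) →
    (∀ ι, yoneda.map (J.s (.face ι n.lt_succ_self)) ≫ w = u ι ≫ f.hom) →
      ∃ v, (∀ ι, yoneda.map (J.s (.face ι n.lt_succ_self)) ≫ v = u ι) ∧ v ≫ f.hom = w

end

/-- `R` is the right adjoint of a Quillen equivalence, it is an equivalence of homotopy theories,
and so is its restriction to the objects of `P m` and `P' m`, for all `m`. -/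
structure IsHomotopyEquiv {K L : Type 1} [Category.{0} K] [Category.{0} L] (R : K ⥤ L)
    (W F : MorphismProperty K) (P : ℕ → ObjectProperty K) (V E : MorphismProperty L)
    (P' : ℕ → ObjectProperty L) : Prop where
  quillen : IsQuillenEquiv R W F V E
  hoEq : HoEq R W V
  hoEqOn : ∀ m, HoEqOn R (P m) (P' m) W V

/-- Restriction of presheaves along `T`. -/
abbrev rs {Q Q' : Type} [SmallCategory Q] [SmallCategory Q'] (J' : Glob Q') (T : Q ⥤ Q') :
    Gpd J' ⥤ Qᵒᵖ ⥤ Type :=
  ObjectProperty.ι (C := Q'ᵒᵖ ⥤ Type) (Gl J' yoneda) ⋙ (Functor.whiskeringLeft _ _ _).obj T.op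

/-- Serre fibrations: the homotopy lifting property for balls. -/
def serre : MorphismProperty CompactlyGenerated.{0, 0} := fun Y Z p =>
  ∀ n (h : C(Metric.closedBall (0 : EuclideanSpace ℝ (Fin n)) 1 × unitInterval, Z.toTop))
    (u : C(Metric.closedBall (0 : EuclideanSpace ℝ (Fin n)) 1, Y.toTop)),
    (∀ x, (CompactlyGenerated.compactlyGeneratedToTop.map p).hom (u x) = h (x, 0)) →
      ∃ g : C(Metric.closedBall (0 : EuclideanSpace ℝ (Fin n)) 1 × unitInterval, Y.toTop),
        (∀ x, g (x, 0) = u x) ∧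
          ∀ x, (CompactlyGenerated.compactlyGeneratedToTop.map p).hom (g x) = h x

end Vale.Agent.P259.H615
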