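import Vale.Agent.P259.StmtB
import Mathlib.CategoryTheory.MorphismProperty.FunctorCategory

/-!
Definitions for the stronger forms of the homotopy hypothesis: the category of `∞`-groupoids and
its weak equivalences, morphisms of globular extensions, truncated `∞`-groupoids and homotopy
`n`-types, and equivalences of homotopy theories (for diagrams of every small shape).
-/

open CategoryTheory

namespace Vale.Agent.P259.H615

open StmtB Theta0

section

variable {Q : Type} [SmallCategory Q] (J : Glob Q)

/-- The category of `∞`-groupoids over `(Q, J)`: a full subcategory of the presheaves on `Q`. -/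
abbrev Gpd : Type 1 := ObjectProperty.FullSubcategory (C := Qᵒᵖ ⥤ Type) (Gl J yoneda)

/-- The functor to `∞`-groupoids defined by a functor to presheaves with values in groupoids. -/
abbrev toGpd {K : Type 1} [Category.{0} K] (P : K ⥤ Qᵒᵖ ⥤ Type)
    (h : ∀ Y, Gl J yoneda (P.obj Y)) : K ⥤ Gpd J :=
  ObjectProperty.lift (Gl J yoneda) P h

/-- A choice of iterated identities. -/
def IsIdent (id : ∀ n, Ext.H ⟨Q, J⟩ (disc n) (disc 0)) : Prop :=
  ∀ n, IsLift (fun _ => id n) (id n.succ)

/-- The weak equivalences of `∞`-groupoids. -/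
def gwe (id : ∀ n, Ext.H ⟨Q, J⟩ (disc n) (disc 0)) : MorphismProperty (Gpd J) :=
  (we (fun ι {n} => yoneda.map (J.s (.face ι n.lt_succ_self))) fun {n} =>
    yoneda.map (id n)).inverseImage (ObjectProperty.ι _)

/-- The `m`-truncated `∞`-groupoids: `π_i(X, x)` is trivial for all `x` and all `i > m`. -/
def trunc (id : ∀ n, Ext.H ⟨Q, J⟩ (disc n) (disc 0)) (m : ℕ) : ObjectProperty (Gpd J) := fun X =>
  let d (ι n) : yoneda.obj (J.o (disc n)) ⟶ yoneda.obj (J.o (disc n.succ)) :=
    yoneda.map (J.s (.face ι n.lt_succ_self))
  ∀ (x : yoneda.obj (J.o (disc 0)) ⟶ X.obj) n, m ≤ n →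
    ∀ u v : yoneda.obj (J.o (disc n.succ)) ⟶ X.obj,
    (∀ ι, d ι n ≫ u = yoneda.map (id n) ≫ x) → (∀ ι, d ι n ≫ v = yoneda.map (id n) ≫ x) →
      ∃ w, d false n.succ ≫ w = u ∧ d true n.succ ≫ w = v

end

/-- Homotopy `m`-types: `π_i(Y, y)` is trivial for all `y` and all `i > m`. -/
def htype (m : ℕ) : ObjectProperty CompactlyGenerated.{0, 0} := fun Y =>
  ∀ (y : Y) i, m < i → Subsingleton (HomotopyGroup (Fin i) Y y)

/-- The weak homotopy equivalences between compactly generated spaces. -/
abbrev wheT : MorphismProperty CompactlyGenerated.{0, 0} :=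
  whe.inverseImage CompactlyGenerated.compactlyGeneratedToTop

/-- `T` is a morphism of globular extensions (a functor under `Θ₀`). -/
structure IsMor {Q Q' : Type} [SmallCategory Q] [SmallCategory Q'] (J : Glob Q) (J' : Glob Q')
    (T : Q ⥤ Q') : Prop where
  obj : ∀ S, T.obj (J.o S) = J'.o S
  map : ∀ {S U} (x : Str S U), HEq (T.map (J.s x)) (J'.s x)

/-- `R` is an equivalence of homotopy theories: it preserves and reflects the weak equivalences,
and for every small category `D` it induces an equivalence between the localizations of the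
categories of `D`-diagrams at the objectwise weak equivalences. -/
def HoEq {K L : Type 1} [Category.{0} K] [Category.{0} L] (R : K ⥤ L) (W : MorphismProperty K)
    (V : MorphismProperty L) : Prop :=
  V.inverseImage R = W ∧ ∀ (D : Type) [SmallCategory D],
    ((Functor.whiskeringRight D K L).obj R ⋙ (V.functorCategory D).Q).IsLocalization
      (W.functorCategory D)

/-- `R` restricts to an equivalence of homotopy theories between the full subcategories `P` and
`P'`. -/
def HoEqOn {K L : Type 1} [Category.{0} K] [Category.{0} L] (R : K ⥤ L) (P : ObjectProperty K)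
    (P' : ObjectProperty L) (W : MorphismProperty K) (V : MorphismProperty L) : Prop :=
  P'.inverseImage R = P ∧ ∃ h, HoEq (P'.lift (P.ι ⋙ R) h) (W.inverseImage P.ι)
    (V.inverseImage P'.ι)

end Vale.Agent.P259.H615
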