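import Vale.Agent.P259.H615.Mor
import Vale.Agent.P259.H304.Zig

/-!
Restriction along a morphism of coherators preserves and reflects weak equivalences; the
fundamental `∞`-groupoid functor and the restriction functors are equivalences of homotopy
theories.
-/

open CategoryTheory Opposite CompactlyGenerated

namespace Vale.Agent.P259.H615

open StmtB Theta0

section

variable {Q : Type} [SmallCategory Q]

/-- The weak equivalences of groupoids correspond to those of the development. -/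
theorem exists_gwe_eq (J : Glob Q) (hJ : IsCoherator ⟨Q, J⟩) :
    ∃ WM : MorphismProperty (Ext.to ⟨Q, J⟩).GE.Gpd, WM.RespectsIso ∧
      (∀ I, GlobExt.weq I = WM) ∧ ∀ id, IsIdent J id → gwe J id =
        WM.inverseImage (show Gpd J ⥤ _ from (Ext.to ⟨Q, J⟩).E) := by
  have hC : (Ext.to ⟨Q, J⟩).GE.IsCoherator := S.isCoherator_GE hJ.to
  obtain ⟨K0⟩ := GlobExt.exists_cylFun_zero hC
  refine ⟨(K0.pathCtx hC).W, inferInstance, fun I => ?_, fun id hid => ?_⟩
  · ext X Y f
    exact GlobExt.weq_iff hC K0 I f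
  · ext X Y f
    exact S.we_iff_W (A := Ext.to ⟨Q, J⟩) hC K0 id (fun b n => hid n b) f

/-- The weak equivalences do not depend on the choice of the iterated identities. -/
theorem gwe_congr (J : Glob Q) (hJ : IsCoherator ⟨Q, J⟩)
    {id id' : ∀ n, Ext.H ⟨Q, J⟩ (disc n) (disc 0)} (h : IsIdent J id) (h' : IsIdent J id') :
    gwe J id = gwe J id' := by
  obtain ⟨W, -, -, hW⟩ := exists_gwe_eq J hJ
  rw [hW id h, hW id' h']

/-- Iterated identities exist. -/
theorem exists_isIdent (J : Glob Q) (hJ : IsCoherator ⟨Q, J⟩) : ∃ id, IsIdent J id := by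
  choose l hl using hJ.2
  let π : ℕ → Pair ⟨Q, J⟩ := fun n => ⟨n, disc n, fun _ => 𝟙 _, fun _ _ _ => rfl⟩
  let id : ∀ n, Ext.H ⟨Q, J⟩ (disc n) (disc 0) := fun n =>
    Nat.rec (𝟙 (J.o (disc 0))) (fun n f => (show J.o (disc n.succ) ⟶ J.o (disc n) from l (π n)) ≫ f) n
  refine ⟨id, fun n ι => ?_⟩
  have h : J.s (.face ι n.lt_succ_self) ≫ (show J.o (disc n.succ) ⟶ J.o (disc n) from l (π n)) =
    𝟙 (J.o (disc n)) := hl (π n) ι
  change J.s (.face ι n.lt_succ_self) ≫
    (show J.o (disc n.succ) ⟶ J.o (disc n) from l (π n)) ≫ id n = id n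
  rw [← Category.assoc, h, Category.id_comp]

/-- The weak equivalences between presheaves which are groupoids do not depend on the choice of
the iterated identities. -/
theorem we_congr_id (J : Glob Q) (hJ : IsCoherator ⟨Q, J⟩)
    {id id' : ∀ n, Ext.H ⟨Q, J⟩ (disc n) (disc 0)} (h : IsIdent J id) (h' : IsIdent J id')
    {X Y : Qᵒᵖ ⥤ Type} (hX : Gl J yoneda X) (hY : Gl J yoneda Y) (f : X ⟶ Y) :
    we (fun ι {n} => yoneda.map (J.s (.face ι n.lt_succ_self))) (fun {n} =>
      yoneda.map (id n)) f ↔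
    we (fun ι {n} => yoneda.map (J.s (.face ι n.lt_succ_self))) (fun {n} =>
      yoneda.map (id' n)) f := by
  have h1 := congrArg (fun W : MorphismProperty (Gpd J) =>
    W (X := ⟨X, hX⟩) (Y := ⟨Y, hY⟩) (ObjectProperty.homMk f)) (gwe_congr J hJ h h')
  exact iff_of_eq h1

/-- The fundamental `∞`-groupoid functor is a homotopy equivalence of relative categories. -/
theorem zig_Pi (J : Glob Q) (hJ : IsCoherator ⟨Q, J⟩) {F : Q ⥤ CompactlyGenerated.{0, 0}}
    (hF : IsDisc J F) {id : ∀ n, Ext.H ⟨Q, J⟩ (disc n) (disc 0)} (hid : IsIdent J id)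
    (h : ∀ Y, Gl J yoneda ((F.op ⋙ coyoneda).flip.obj Y)) :
    H304.Zig (toGpd J (F.op ⋙ coyoneda).flip h) wheT (gwe J id) := by
  have hC : (Ext.to ⟨Q, J⟩).GE.IsCoherator := S.isCoherator_GE hJ.to
  obtain ⟨I⟩ := GlobExt.exists_ident hC
  obtain ⟨WM, h1, h2, h3⟩ := exists_gwe_eq J hJ
  have hF' := isDisc_to hF
  let E : Gpd J ⥤ (Ext.to ⟨Q, J⟩).GE.Gpd := (Ext.to ⟨Q, J⟩).E
  have hE : E.IsEquivalence := inferInstanceAs (Ext.to ⟨Q, J⟩).E.IsEquivalence
  have h4 := H304.zig_PiCG hC I hF'.toDisc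
  rw [h2 I] at h4
  have h5 : (gwe J id).RespectsIso := by
    rw [h3 id hid]
    exact inferInstanceAs (WM.inverseImage E).RespectsIso
  have h6 : (gwe J id).inverseImage E.inv = WM := by
    rw [h3 id hid]
    ext X Y f
    exact WM.arrow_mk_iso_iff (Arrow.isoMk (E.asEquivalence.counitIso.app X)
      (E.asEquivalence.counitIso.app Y) (E.asEquivalence.counitIso.hom.naturality f).symm)
  have h7 : (wheCG : MorphismProperty CompactlyGenerated.{0, 0}).RespectsIso := by
    rw [← h4.1]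
    infer_instance
  have h8 : toGpd J (F.op ⋙ coyoneda).flip h ⋙ E ≅ hF'.toDisc.PiCG :=
    S.piIso (A := Ext.to ⟨Q, J⟩) hF' h
  have h9 := h4.comp_equiv E.inv (gwe J id) h6
    (R' := toGpd J (F.op ⋙ coyoneda).flip h)
    (Functor.isoWhiskerRight h8.symm E.inv ≪≫ Functor.associator _ _ _ ≪≫
      Functor.isoWhiskerLeft _ E.asEquivalence.unitIso.symm ≪≫ Functor.rightUnitor _)
  have h10 : (wheT : MorphismProperty CompactlyGenerated.{0, 0}) = wheCG := whe_eq
  rw [h10]
  exact h9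

variable {Q' : Type} [SmallCategory Q'] {J : Glob Q} {J' : Glob Q'} {T : Q ⥤ Q'}

lemma we_restr (hT : IsMor J J' T) (hJ' : IsCoherator ⟨Q', J'⟩)
    {id : ∀ n, Ext.H ⟨Q, J⟩ (disc n) (disc 0)} (h : IsIdent J id)
    {id' : ∀ n, Ext.H ⟨Q', J'⟩ (disc n) (disc 0)} (h' : IsIdent J' id')
    {X Y : Q'ᵒᵖ ⥤ Type} (hX : Gl J' yoneda X) (hY : Gl J' yoneda Y) (f : X ⟶ Y) :
    we (fun ι {n} => yoneda.map (J'.s (.face ι n.lt_succ_self))) (fun {n} =>
      yoneda.map (id' n)) f ↔
    we (fun ι {n} => yoneda.map (J.s (.face ι n.lt_succ_self))) (fun {n} =>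
      yoneda.map (id n)) (Functor.whiskerLeft T.op f) := by
  revert hX hY h'
  revert id'
  revert hJ'
  refine strictify (motive := fun J' => ∀ (hJ' : IsCoherator ⟨Q', J'⟩)
    {id' : ∀ n, Ext.H ⟨Q', J'⟩ (disc n) (disc 0)} (h' : IsIdent J' id')
    (hX : Gl J' yoneda X) (hY : Gl J' yoneda Y),
    (we (fun ι {n} => yoneda.map (J'.s (.face ι n.lt_succ_self))) (fun {n} =>
      yoneda.map (id' n)) f ↔
    we (fun ι {n} => yoneda.map (J.s (.face ι n.lt_succ_self))) (fun {n} =>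
      yoneda.map (id n)) (Functor.whiskerLeft T.op f))) hT ?_
  intro bij ff last glue hJ' id' h' hX hY
  have h1 := we_congr_id _ hJ' h' (id' := fun n => T.map (id n)) (fun n ι => by
    change T.map (J.s (.face ι n.lt_succ_self)) ≫ T.map (id n.succ) = T.map (id n)
    rw [← T.map_comp]
    exact congrArg T.map (h n ι)) hX hY f
  refine h1.trans ?_
  exact S.we_congr (B := fun n => yoneda.obj (T.obj (J.o (disc n))))
    (B' := fun n => yoneda.obj (J.o (disc n)))
    (fun ι {n} => yoneda.map (T.map (J.s (.face ι n.lt_succ_self))))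
    (fun {n} => yoneda.map (T.map (id n)))
    (fun ι {n} => yoneda.map (J.s (.face ι n.lt_succ_self)))
    (fun {n} => yoneda.map (id n)) f (Functor.whiskerLeft T.op f)
    (fun n => cells T X (J.o (disc n))) (fun n => cells T Y (J.o (disc n)))
    (fun ι n w => cells_map T X _ w) (fun ι n w => cells_map T Y _ w)
    (fun n x => cells_map T X _ x) (fun n x => cells_map T Y _ x)
    (fun n w => cells_comp T f w)

/-- Restriction along a morphism of coherators is an equivalence of homotopy theories. -/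
theorem hoEq_restr (hT : IsMor J J' T) (hJ : IsCoherator ⟨Q, J⟩) (hJ' : IsCoherator ⟨Q', J'⟩)
    {id : ∀ n, Ext.H ⟨Q, J⟩ (disc n) (disc 0)} (hid : IsIdent J id)
    {id' : ∀ n, Ext.H ⟨Q', J'⟩ (disc n) (disc 0)} (hid' : IsIdent J' id')
    (h : ∀ X : Gpd J', Gl J yoneda (T.op ⋙ X.obj)) :
    HoEq (toGpd J (ObjectProperty.ι (C := Q'ᵒᵖ ⥤ Type) (Gl J' yoneda) ⋙ (Functor.whiskeringLeft _ _ _).obj T.op) h)
      (gwe J' id') (gwe J id) := by
  obtain ⟨F, hF⟩ := (main.2 J' hJ').1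
  have hF2 : ∀ Y, Gl J' yoneda ((F.op ⋙ coyoneda).flip.obj Y) := (main.2 J' hJ').2 F hF id' hid' |>.choose
  have h1 := zig_Pi J' hJ' hF hid' hF2
  have h2 := zig_Pi J hJ (isDisc_restr hT hF) hid (fun Y => h ⟨_, hF2 Y⟩)
  refine H304.HoEq.of_comp h1.hoEq h2.hoEq ?_
  ext X Y f
  exact (we_restr hT hJ' hid hid' X.property Y.property f.hom).symm

end

end Vale.Agent.P259.H615
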