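import Vale.Agent.P259.H615.DefsQ
import Mathlib.CategoryTheory.Adjunction.Unique

/-!
Quillen equivalences satisfy two out of three.
-/

open CategoryTheory

namespace Vale.Agent.P259.H615

variable {K L M : Type 1} [Category.{0} K] [Category.{0} L] [Category.{0} M]

/-- Left adjoints of functors which preserve trivial fibrations preserve cofibrant objects. -/
theorem cofib_leftAdjoint {R : L ⥤ M} {G : M ⥤ L} (a : G ⊣ R) {E : MorphismProperty L}
    {D : MorphismProperty M} (h : E ≤ D.inverseImage R) {X : M} (hX : cofib D X) :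
    cofib E (G.obj X) := by
  intro A B p hp f
  obtain ⟨g, hg⟩ := hX (R.map p) (h p hp) (a.homEquiv X B f)
  refine ⟨(a.homEquiv X A).symm g, ?_⟩
  apply (a.homEquiv X B).injective
  rw [a.homEquiv_naturality_right, Equiv.apply_symm_apply, hg]

theorem IsQuillenEquiv.of_comp {R : K ⥤ L} {R' : L ⥤ M} {W F : MorphismProperty K}
    {V E : MorphismProperty L} {U D : MorphismProperty M} (h1 : IsQuillenEquiv R W F V E)
    (h2 : IsQuillenEquiv (R ⋙ R') W F U D) (hU : U.inverseImage R' = V)
    (hD : E ≤ D.inverseImage R') (hR : R'.IsRightAdjoint)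
    (hW : ∀ Y, W (𝟙 Y)) (h23 : U.HasTwoOutOfThreeProperty) (hI : U.RespectsIso) :
    IsQuillenEquiv R' V E U D := by
  have ht : E ⊓ V ≤ (D ⊓ U).inverseImage R' := by
    rintro X Y f ⟨hf, hf'⟩
    rw [← hU] at hf'
    exact ⟨hD f hf, hf'⟩
  refine ⟨hD, ht, R'.leftAdjoint, Adjunction.ofIsRightAdjoint R', ?_⟩
  intro X hX Y f
  obtain ⟨-, -, G1, a1, H1⟩ := h1
  obtain ⟨-, -, G2, a2, H2⟩ := h2
  let G := R'.leftAdjoint
  let a : G ⊣ R' := Adjunction.ofIsRightAdjoint R'
  -- the unit
  have hu : U (a.unit.app X) := by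
    have k1 : V (a1.unit.app (G.obj X)) := by
      have := (H1 (G.obj X) (cofib_leftAdjoint a ht hX) _ (𝟙 _)).1 (hW _)
      rwa [a1.homEquiv_id] at this
    have k2 : U (R'.map (a1.unit.app (G.obj X))) := by
      rw [← hU] at k1
      exact k1
    let b : G ⋙ G1 ⊣ R ⋙ R' := a.comp a1
    have k3 : U (a2.unit.app X) := by
      have := (H2 X hX _ (𝟙 _)).1 (hW _)
      rwa [a2.homEquiv_id] at this
    have k4 : a2.unit.app X ≫ (R ⋙ R').map ((a2.leftAdjointUniq b).hom.app X) =
        b.unit.app X := Adjunction.unit_leftAdjointUniq_hom_app a2 b X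
    have k5 : b.unit.app X = a.unit.app X ≫ R'.map (a1.unit.app (G.obj X)) := by
      simp [b]
    have k6 : IsIso ((R ⋙ R').map ((a2.leftAdjointUniq b).hom.app X)) := inferInstance
    have k8 : U (b.unit.app X) := by
      rw [← k4]
      exact (U.cancel_right_of_respectsIso _ _).2 k3
    rw [k5] at k8
    exact U.of_postcomp _ _ k2 k8
  have hf : a.homEquiv X Y f = a.unit.app X ≫ R'.map f := a.homEquiv_unit _ _ _
  change V f ↔ U (a.homEquiv X Y f)
  rw [hf, ← hU]
  exact ⟨fun h => U.comp_mem _ _ hu h, fun h => U.of_precomp _ _ hu h⟩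

end Vale.Agent.P259.H615
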