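import Vale.Agent.P259.H615.Trunc
import Vale.Agent.P259.H615.QTwo

/-!
Restriction along a morphism of coherators is the right adjoint of a Quillen equivalence.
-/

open CategoryTheory Opposite

namespace Vale.Agent.P259.H615

open StmtB Theta0

section

variable {Q : Type} [SmallCategory Q]

/-- The category of groupoids is reflective in the category of presheaves. -/
theorem isRightAdjoint_ι (J : Glob Q) :
    (ObjectProperty.ι (C := Qᵒᵖ ⥤ Type) (Gl J yoneda)).IsRightAdjoint := by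
  let A := Ext.to ⟨Q, J⟩
  let P : ObjectProperty (Qᵒᵖ ⥤ Type) := Gl J yoneda
  let E : P.FullSubcategory ⥤ A.GE.Gpd := A.E
  have hE : E.IsEquivalence := inferInstanceAs A.E.IsEquivalence
  let p : (Qᵒᵖ ⥤ Type) ⥤ (A.GE.Objᵒᵖ ⥤ Type) := A.pre
  have hp : p.IsEquivalence := inferInstanceAs A.pre.IsEquivalence
  have e : E ⋙ (A.GE.isMd ⊤).ι ≅ P.ι ⋙ p := NatIso.ofComponents (fun X => Iso.refl _)
  have e' : E ⋙ (A.GE.isMd ⊤).ι ⋙ p.inv ≅ P.ι :=
    (Functor.associator _ _ _).symm ≪≫ Functor.isoWhiskerRight e p.inv ≪≫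
      Functor.associator _ _ _ ≪≫ Functor.isoWhiskerLeft _ p.asEquivalence.unitIso.symm ≪≫
      Functor.rightUnitor _
  have h1 : (E ⋙ (A.GE.isMd ⊤).ι ⋙ p.inv).IsRightAdjoint := inferInstance
  exact Functor.isRightAdjoint_of_iso e'

theorem gwe_two (J : Glob Q) (hJ : IsCoherator ⟨Q, J⟩)
    {id : ∀ n, Ext.H ⟨Q, J⟩ (disc n) (disc 0)} (h : IsIdent J id) :
    (gwe J id).HasTwoOutOfThreeProperty ∧ (gwe J id).RespectsIso := by
  have hC : (Ext.to ⟨Q, J⟩).GE.IsCoherator := S.isCoherator_GE hJ.to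
  obtain ⟨K0⟩ := GlobExt.exists_cylFun_zero hC
  have h1 : gwe J id = (K0.pathCtx hC).W.inverseImage
      (show Gpd J ⥤ _ from (Ext.to ⟨Q, J⟩).E) := by
    ext X Y f
    exact S.we_iff_W (A := Ext.to ⟨Q, J⟩) hC K0 id (fun b n => h n b) f
  rw [h1]
  exact ⟨inferInstance, inferInstance⟩

variable {Q' : Type} [SmallCategory Q'] {J : Glob Q} {J' : Glob Q'} {T : Q ⥤ Q'}

/-- Restriction of groupoids preserves fibrations. -/
theorem gfib_rs (hT : IsMor J J' T) (h : ∀ X : Gpd J', Gl J yoneda (T.op ⋙ X.obj))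
    {X Y : Gpd J'} (f : X ⟶ Y) (hf : gfib J' f) : gfib J ((toGpd J (rs J' T) h).map f) := by
  obtain ⟨X, hX⟩ := X
  obtain ⟨Y, hY⟩ := Y
  obtain ⟨f, rfl⟩ : ∃ g : X ⟶ Y, ObjectProperty.homMk g = f := ⟨f.hom, rfl⟩
  have key : (∀ n (u : yoneda.obj (J'.o (disc n)) ⟶ X) (w : yoneda.obj (J'.o (disc n.succ)) ⟶ Y),
      yoneda.map (J'.s (.face false n.lt_succ_self)) ≫ w = u ≫ f →
      ∃ v, yoneda.map (J'.s (.face false n.lt_succ_self)) ≫ v = u ∧ v ≫ f = w) →
    ∀ n (u : yoneda.obj (J.o (disc n)) ⟶ T.op ⋙ X)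
      (w : yoneda.obj (J.o (disc n.succ)) ⟶ T.op ⋙ Y),
      yoneda.map (J.s (.face false n.lt_succ_self)) ≫ w = u ≫ Functor.whiskerLeft T.op f →
      ∃ v, yoneda.map (J.s (.face false n.lt_succ_self)) ≫ v = u ∧
        v ≫ Functor.whiskerLeft T.op f = w := by
    refine strictify (motive := fun J' =>
      (∀ n (u : yoneda.obj (J'.o (disc n)) ⟶ X) (w : yoneda.obj (J'.o (disc n.succ)) ⟶ Y),
      yoneda.map (J'.s (.face false n.lt_succ_self)) ≫ w = u ≫ f →
      ∃ v, yoneda.map (J'.s (.face false n.lt_succ_self)) ≫ v = u ∧ v ≫ f = w) →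
    ∀ n (u : yoneda.obj (J.o (disc n)) ⟶ T.op ⋙ X)
      (w : yoneda.obj (J.o (disc n.succ)) ⟶ T.op ⋙ Y),
      yoneda.map (J.s (.face false n.lt_succ_self)) ≫ w = u ≫ Functor.whiskerLeft T.op f →
      ∃ v, yoneda.map (J.s (.face false n.lt_succ_self)) ≫ v = u ∧
        v ≫ Functor.whiskerLeft T.op f = w) hT ?_
    intro bij ff last glue H n u w huw
    obtain ⟨u, rfl⟩ := (cells T X _).surjective u
    obtain ⟨w, rfl⟩ := (cells T Y _).surjective w
    rw [← cells_map, ← cells_comp] at huw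
    obtain ⟨v, hv1, hv2⟩ := H n u w ((cells T Y _).injective huw)
    refine ⟨cells T X _ v, ?_, ?_⟩
    · rw [← cells_map]
      exact congrArg _ hv1
    · rw [← cells_comp]
      exact congrArg _ hv2
  exact key hf

/-- Restriction of groupoids has a left adjoint. -/
theorem isRightAdjoint_rs (h : ∀ X : Gpd J', Gl J yoneda (T.op ⋙ X.obj)) :
    (toGpd J (rs J' T) h).IsRightAdjoint := by
  have h1 := isRightAdjoint_ι J'
  have h2 : ((Functor.whiskeringLeft _ _ (Type)).obj T.op).IsRightAdjoint :=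
    (T.op.lanAdjunction Type).isRightAdjoint
  have h3 : (rs J' T).IsRightAdjoint := inferInstance
  let P : ObjectProperty (Qᵒᵖ ⥤ Type) := Gl J yoneda
  have a := (Adjunction.ofIsRightAdjoint (rs J' T)).restrictFullyFaithful
    (iC := P.ι) (iD := 𝟭 (Gpd J')) P.fullyFaithfulι (Functor.FullyFaithful.id _)
    (L := P.ι ⋙ (rs J' T).leftAdjoint) (R := toGpd J (rs J' T) h)
    (Functor.rightUnitor _).symm (NatIso.ofComponents (fun X => Iso.refl _))
  exact a.isRightAdjoint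

lemma wheT_id (Y : CompactlyGenerated.{0, 0}) : wheT (𝟙 Y) := by
  refine ⟨fun y => ⟨y, fun w => Iff.rfl⟩, fun n x g hg v => ⟨v, fun w => ?_⟩⟩
  have h : g w = w := by
    ext t
    exact hg w t
  rw [h]
  exact Iff.rfl

/-- Restriction along a morphism of coherators is the right adjoint of a Quillen equivalence. -/
theorem quillen_rs (hT : IsMor J J' T) (hJ : IsCoherator ⟨Q, J⟩) (hJ' : IsCoherator ⟨Q', J'⟩)
    {id : ∀ n, Ext.H ⟨Q, J⟩ (disc n) (disc 0)} (hid : IsIdent J id)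
    {id' : ∀ n, Ext.H ⟨Q', J'⟩ (disc n) (disc 0)} (hid' : IsIdent J' id')
    (h : ∀ X : Gpd J', Gl J yoneda (T.op ⋙ X.obj))
    {F : MorphismProperty CompactlyGenerated.{0, 0}}
    (q : ∀ D, IsDisc J D → ∀ k, IsQuillenEquiv (toGpd J (D.op ⋙ coyoneda).flip k) wheT F
      (gwe J id) (gfib J))
    (q' : ∀ D, IsDisc J' D → ∀ k, IsQuillenEquiv (toGpd J' (D.op ⋙ coyoneda).flip k) wheT F
      (gwe J' id') (gfib J')) :
    IsQuillenEquiv (toGpd J (rs J' T) h) (gwe J' id') (gfib J') (gwe J id) (gfib J) := by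
  obtain ⟨D, hD⟩ := (main.2 J' hJ').1
  have hD2 : ∀ Y, Gl J' yoneda ((D.op ⋙ coyoneda).flip.obj Y) :=
    (main.2 J' hJ').2 D hD id' hid' |>.choose
  have h1 := q' D hD hD2
  have h2 := q _ (isDisc_restr hT hD) (fun Y => h ⟨_, hD2 Y⟩)
  refine IsQuillenEquiv.of_comp (R := toGpd J' (D.op ⋙ coyoneda).flip hD2) h1 h2
    (hoEq_restr hT hJ hJ' hid hid' h).1 (fun X Y f hf => gfib_rs hT h f hf)
    (isRightAdjoint_rs h) wheT_id (gwe_two J hJ hid).1 (gwe_two J hJ hid).2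

end

end Vale.Agent.P259.H615
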