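import Vale.Agent.P259.H615.Hyp
import Vale.Agent.P259.H615.Adj
import Vale.Agent.P259.H304.Quillen
import Vale.Agent.P259.H403.NTypes

/-!
From the working definitions to the definitions of the final statement.
-/

open CategoryTheory Opposite

namespace Vale.Agent.P259.Hyp

open StmtB Theta0

section

variable {K L : Type 1} [Category.{0} K] [Category.{0} L]

lemma IsQuillenEquiv.of {R : K ⥤ L} {W F : MorphismProperty K} {V E : MorphismProperty L}
    (h : H615.IsQuillenEquiv R W F V E) : IsQuillenEquiv R W F V E :=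
  ⟨h.fib, h.triv, h.adj⟩

lemma HoEq.of {R : K ⥤ L} {W : MorphismProperty K} {V : MorphismProperty L}
    (h : H615.HoEq R W V) : HoEq R W V := h

lemma IsSemiModel.of {W F T : MorphismProperty K} (h : H615.IsSemiModel W F) (hT : F ⊓ W = T) :
    IsSemiModel W F T := by
  subst hT
  exact ⟨h.lim, h.colim, h.two, h.retract, rfl, h.fib, h.cof, h.lift, h.fac, h.fac'⟩

lemma IsHomotopyEquiv.of {R : K ⥤ L} {W F : MorphismProperty K} {P : ℕ → ObjectProperty K}
    {V E : MorphismProperty L} {P' : ℕ → ObjectProperty L} (h1 : H615.IsQuillenEquiv R W F V E)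
    (h2 : H615.HoEq R W V) (h3 : ∀ m, H615.HoEqOn R (P m) (P' m) W V) :
    IsHomotopyEquiv R W F P V E P' :=
  ⟨.of h1, h2, fun m => (h3 m).1, fun m => (h3 m).2⟩

end

section

variable {Q : Type} [SmallCategory Q] (J : Glob Q)

lemma gtriv_eq : (H615.gtriv J : MorphismProperty (H615.Gpd J)) = gtriv J := by
  ext X Y f
  change H615.gtriv J f ↔ triv (d J) f.hom
  constructor
  · rintro ⟨h0, h⟩
    refine ⟨h0, fun u v hv => h 0 u v (fun ι j lt => absurd lt (Nat.not_lt_zero j)) hv,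
      fun n u hu v hv => h (n + 1) u v (fun ι j lt => ?_) hv⟩
    rcases Nat.lt_succ_iff_lt_or_eq.1 lt with lt' | rfl
    · have h1 : yoneda.map (J.s (.face ι lt)) =
          yoneda.map (J.s (.face ι lt')) ≫ yoneda.map (J.s (.face false n.lt_succ_self)) := by
        rw [← yoneda.map_comp, J.face_face]
      rw [h1, Category.assoc, Category.assoc]
      exact congrArg _ (hu false)
    · exact hu ι
  · rintro ⟨h0, h1, h2⟩
    refine ⟨h0, fun n u w hu hw => ?_⟩
    cases n with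
    | zero => exact h1 u w hw
    | succ n => exact h2 n u (fun ι => hu ι n.lt_succ_self) w hw

theorem semiModel (hJ : IsCoherator ⟨Q, J⟩) {id : ∀ n, Ext.H ⟨Q, J⟩ (disc n) (disc 0)}
    (hid : IsIdent J id) : IsSemiModel (gwe J id) (gfib J) (gtriv J) := by
  have h := H304.semiModel J hJ id hid
  exact IsSemiModel.of (K := Gpd J) h.1 (h.2.trans (gtriv_eq J))

theorem isGpdEquiv_Pi (hJ : IsCoherator ⟨Q, J⟩) {id : ∀ n, Ext.H ⟨Q, J⟩ (disc n) (disc 0)}
    (hid : IsIdent J id) {F : Q ⥤ CompactlyGenerated.{0, 0}} (hF : IsDisc J F) :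
    IsGpdEquiv J id (F.op ⋙ coyoneda).flip wheT serre htype := by
  have h : ∀ Y, Gl J yoneda ((F.op ⋙ coyoneda).flip.obj Y) :=
    (main.2 J hJ).2 F hF id hid |>.choose
  refine ⟨H615.toGpd J _ h, rfl, ?_⟩
  have h1 := H615.zig_Pi J hJ hF hid h
  exact IsHomotopyEquiv.of (L := Gpd J) (H304.quillen J hJ hF id hid h) h1.hoEq fun m =>
    H615.hoEqOn_of_zig h1 (funext fun Y => propext (H403.trunc_iff J hJ id hid m hF h Y))
      fun f hf => H403.trunc_congr J hJ id hid m f hf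

variable {Q' : Type} [SmallCategory Q'] {J' : Glob Q'} {T : Q ⥤ Q'}

theorem restrEquiv (hJ : IsCoherator ⟨Q, J⟩) (hJ' : IsCoherator ⟨Q', J'⟩) (hT : IsMor J J' T) :
    RestrEquiv J J' T := by
  have hT' : H615.IsMor J J' T := ⟨hT.obj, hT.map⟩
  refine ⟨fun F hF => ⟨H615.isDisc_restr hT' hF, rfl⟩, fun id hid id' hid' => ?_⟩
  have h : ∀ X : H615.Gpd J', Gl J yoneda (T.op ⋙ X.obj) := fun X =>
    H615.gl_restr hT' X.obj X.property
  refine ⟨H615.toGpd J (H615.rs J' T) h, rfl, ?_⟩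
  refine IsHomotopyEquiv.of (K := Gpd J') (L := Gpd J)
    (H615.quillen_rs hT' hJ hJ' hid hid' h (fun D hD k => H304.quillen J hJ hD id hid k)
      fun D hD k => H304.quillen J' hJ' hD id' hid' k)
    (H615.hoEq_restr hT' hJ hJ' hid hid' h) fun m => ?_
  exact H615.hoEqOn_restr hT' hJ hJ' hid hid' h m
    (fun f hf => H403.trunc_congr J hJ id hid m f hf)
    (fun f hf => H403.trunc_congr J' hJ' id' hid' m f hf)
    (fun F hF k Y => H403.trunc_iff J hJ id hid m hF k Y)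
    (fun F hF k Y => H403.trunc_iff J' hJ' id' hid' m hF k Y)

end

/-- The final theorem. -/
theorem final :
    (∃ A, IsCoherator A) ∧
    (∀ {Q : Type} [SmallCategory Q] (J : Glob Q), IsCoherator ⟨Q, J⟩ →
      (∃ F, IsDisc J F) ∧ (∃ id, IsIdent J id) ∧ ∀ id, IsIdent J id →
      IsSemiModel (gwe J id) (gfib J) (gtriv J) ∧
      ∀ F, IsDisc J F →
      LocEq (F.op ⋙ coyoneda).flip (Gl J yoneda)
        (we (fun ι {n} => yoneda.map (J.s (.face ι n.lt_succ_self))) fun {n} =>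
          yoneda.map (id n)) ∧
      IsGpdEquiv J id (F.op ⋙ coyoneda).flip wheT serre htype) ∧
    ∀ {Q Q' : Type} [SmallCategory Q] [SmallCategory Q'] (J : Glob Q) (J' : Glob Q'),
      IsCoherator ⟨Q, J⟩ → IsCoherator ⟨Q', J'⟩ → (∃ T, IsMor J J' T) ∧
        ∀ T, IsMor J J' T → RestrEquiv J J' T := by
  refine ⟨?_, fun {Q} _ J hJ => ⟨(main.2 J hJ).1, H615.exists_isIdent J hJ, fun id hid =>
    ⟨semiModel J hJ hid, fun F hF => ⟨(main.2 J hJ).2 F hF id hid, isGpdEquiv_Pi J hJ hid hF⟩⟩⟩,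
    fun {Q Q'} _ _ J J' hJ hJ' => ⟨?_, fun T hT => restrEquiv J hJ hJ' hT⟩⟩
  · exact (main (Q := PUnit)).1
  · obtain ⟨T, hT⟩ := H615.exists_mor hJ hJ'
    exact ⟨T, ⟨hT.obj, hT.map⟩⟩

end Vale.Agent.P259.Hyp
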