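import Vale.Agent.P259.StmtB
import Mathlib.CategoryTheory.MorphismProperty.FunctorCategory
import Mathlib.CategoryTheory.MorphismProperty.Retract
import Mathlib.CategoryTheory.MorphismProperty.LiftingProperty
import Mathlib.Analysis.InnerProductSpace.PiL2

/-!
Definitions for the strong forms of the homotopy hypothesis: the category of `∞`-groupoids, its
weak equivalences and fibrations, semi-model structures, Quillen equivalences, equivalences of
homotopy theories, truncated `∞`-groupoids and homotopy types, morphisms of globular extensions.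
-/

open CategoryTheory

namespace Vale.Agent.P259.Hyp

open StmtB Theta0

section

variable {K : Type 1} [Category.{0} K] {B : ℕ → K}

/-- Fibrations: the right lifting property with respect to the source maps `B n ⟶ B (n + 1)`. -/
def fib (d : Bool → ∀ {n}, B n ⟶ B n.succ) : MorphismProperty K := fun X Y F =>
  ∀ n (u : B n ⟶ X) (v : B (Nat.succ n) ⟶ Y), d false ≫ v = u ≫ F →
    ∃ w, d false ≫ w = u ∧ w ≫ F = v

/-- Trivial fibrations: the right lifting property with respect to the inclusions of the spheres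
in the discs `B n`. -/
def triv (d : Bool → ∀ {n}, B n ⟶ B n.succ) : MorphismProperty K := fun X Y F =>
  let R {n} (u : Bool → (B n ⟶ X)) : Prop := ∀ v : B n.succ ⟶ Y, (∀ ι, d ι ≫ v = u ι ≫ F) →
    ∃ w, (∀ ι, d ι ≫ w = u ι) ∧ w ≫ F = v
  (∀ v : B 0 ⟶ Y, ∃ w, w ≫ F = v) ∧ (∀ u : Bool → (B 0 ⟶ X), R u) ∧
    ∀ n (u : Bool → (B (Nat.succ n) ⟶ X)), (∀ ι, d ι ≫ u false = d ι ≫ u true) → R u

/-- Truncated objects: `π_i(X, x)` is trivial for all `x` and all `i > m`. -/
def tr (d : Bool → ∀ {n}, B n ⟶ B n.succ) (c : ∀ {n}, B n ⟶ B 0) (m : ℕ) : ObjectProperty K :=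
  fun X => ∀ (x : B 0 ⟶ X) n, m ≤ n → ∀ u v : B (Nat.succ n) ⟶ X,
    (∀ ι, d ι ≫ u = c ≫ x) → (∀ ι, d ι ≫ v = c ≫ x) → ∃ w, d false ≫ w = u ∧ d true ≫ w = v

/-- Cofibrant objects, when `F` is the class of trivial fibrations. -/
def Cofibrant (F : MorphismProperty K) : ObjectProperty K := fun X =>
  ∀ {A B : K} (p : A ⟶ B), F p → ∀ f : X ⟶ B, ∃ g, g ≫ p = f

/-- `W`, `F` and `T` are the weak equivalences, the fibrations and the trivial fibrations of a
left semi-model structure. The cofibrations are the maps with the left lifting property with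
respect to `T`. -/
structure IsSemiModel (W F T : MorphismProperty K) : Prop where
  lim : Limits.HasLimits K
  colim : Limits.HasColimits K
  two : W.HasTwoOutOfThreeProperty
  retract : W.IsStableUnderRetracts
  inf : F ⊓ W = T
  fib : F = F.llp.rlp
  cof : T = T.llp.rlp
  lift : ∀ {A B : K} (i : A ⟶ B), Cofibrant T A → (F.llp i ↔ T.llp i ∧ W i)
  fac : ∀ {X Y : K} (f : X ⟶ Y), ∃ (Z : K) (i : X ⟶ Z) (p : Z ⟶ Y), F.llp i ∧ F p ∧ i ≫ p = f
  fac' : ∀ {X Y : K} (f : X ⟶ Y), ∃ (Z : K) (i : X ⟶ Z) (p : Z ⟶ Y), T.llp i ∧ T p ∧ i ≫ p = f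

variable {L : Type 1} [Category.{0} L]

/-- `R` is the right adjoint of a Quillen equivalence, for the weak equivalences `W`, `V` and the
fibrations `F`, `E` (all the objects are fibrant). -/
structure IsQuillenEquiv (R : K ⥤ L) (W F : MorphismProperty K) (V E : MorphismProperty L) :
    Prop where
  fib : F ≤ E.inverseImage R
  triv : F ⊓ W ≤ (E ⊓ V).inverseImage R
  adj : ∃ (G : L ⥤ K) (a : G ⊣ R), ∀ X : L, Cofibrant (E ⊓ V) X → ∀ (Y : K) (f : G.obj X ⟶ Y),
    W f ↔ V (a.homEquiv X Y f)

/-- `R` is an equivalence of homotopy theories: it preserves and reflects the weak equivalences,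
and for every small category `D` it induces an equivalence between the localizations of the
categories of `D`-diagrams at the objectwise weak equivalences. -/
def HoEq (R : K ⥤ L) (W : MorphismProperty K) (V : MorphismProperty L) : Prop :=
  V.inverseImage R = W ∧ ∀ (D : Type) [SmallCategory D],
    ((Functor.whiskeringRight D K L).obj R ⋙ (V.functorCategory D).Q).IsLocalization
      (W.functorCategory D)

/-- `R` is the right adjoint of a Quillen equivalence, it is an equivalence of homotopy theories,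
and for all `m` it restricts to an equivalence of homotopy theories between the full subcategories
`P m` and `P' m`. -/
structure IsHomotopyEquiv (R : K ⥤ L) (W F : MorphismProperty K) (P : ℕ → ObjectProperty K)
    (V E : MorphismProperty L) (P' : ℕ → ObjectProperty L) : Prop where
  quillen : IsQuillenEquiv R W F V E
  hoEq : HoEq R W V
  iff : ∀ m, (P' m).inverseImage R = P m
  trunc : ∀ m, ∃ h, HoEq ((P' m).lift ((P m).ι ⋙ R) h) (W.inverseImage (P m).ι)
    (V.inverseImage (P' m).ι)

end

section

variable {Q : Type} [SmallCategory Q] (J : Glob Q)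

/-- The category of `∞`-groupoids over `(Q, J)`: a full subcategory of the presheaves on `Q`. -/
def Gpd : Type 1 := ObjectProperty.FullSubcategory (C := Qᵒᵖ ⥤ Type) (Gl J yoneda)

instance : Category.{0} (Gpd J) :=
  ObjectProperty.FullSubcategory.category (C := Qᵒᵖ ⥤ Type) (Gl J yoneda)

/-- The inclusion in the category of presheaves. -/
def ι : Gpd J ⥤ Qᵒᵖ ⥤ Type := ObjectProperty.ι (C := Qᵒᵖ ⥤ Type) (Gl J yoneda)

/-- The faces `D_n ⟶ D_{n+1}`, as maps of presheaves. -/
def d (b : Bool) {n : ℕ} : yoneda.obj (J.o (disc n)) ⟶ yoneda.obj (J.o (disc n.succ)) :=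
  yoneda.map (J.s (.face b n.lt_succ_self))

/-- A choice of iterated identities. -/
def IsIdent (id : ∀ n, Ext.H ⟨Q, J⟩ (disc n) (disc 0)) : Prop :=
  ∀ n, IsLift (fun _ => id n) (id n.succ)

variable (id : ∀ n, Ext.H ⟨Q, J⟩ (disc n) (disc 0))

/-- The weak equivalences of `∞`-groupoids. -/
def gwe : MorphismProperty (Gpd J) := (we (d J) fun {n} => yoneda.map (id n)).inverseImage (ι J)

/-- The fibrations of `∞`-groupoids. -/
def gfib : MorphismProperty (Gpd J) := (fib (d J)).inverseImage (ι J)

/-- The trivial fibrations of `∞`-groupoids. -/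
def gtriv : MorphismProperty (Gpd J) := (triv (d J)).inverseImage (ι J)

/-- The `m`-truncated `∞`-groupoids. -/
def trunc (m : ℕ) : ObjectProperty (Gpd J) :=
  (tr (d J) (fun {n} => yoneda.map (id n)) m).inverseImage (ι J)

/-- `R` takes its values in `∞`-groupoids, and it is an equivalence in the sense of
`IsHomotopyEquiv`. -/
def IsGpdEquiv {K : Type 1} [Category.{0} K] (R : K ⥤ Qᵒᵖ ⥤ Type) (W F : MorphismProperty K)
    (P : ℕ → ObjectProperty K) : Prop :=
  ∃ R' : K ⥤ Gpd J, R' ⋙ ι J = R ∧ IsHomotopyEquiv R' W F P (gwe J id) (gfib J) (trunc J id)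

variable {Q' : Type} [SmallCategory Q'] (J' : Glob Q')

/-- `T` is a morphism of globular extensions (a functor under `Θ₀`). -/
structure IsMor (T : Q ⥤ Q') : Prop where
  obj : ∀ S, T.obj (J.o S) = J'.o S
  map : ∀ {S U} (x : Str S U), HEq (T.map (J.s x)) (J'.s x)

/-- Restriction along `T` sends disc functors to disc functors, it is compatible with the
fundamental `∞`-groupoids, and it is an equivalence between the categories of `∞`-groupoids. -/
def RestrEquiv (T : Q ⥤ Q') : Prop :=
  let R : (Q'ᵒᵖ ⥤ Type) ⥤ Qᵒᵖ ⥤ Type := (Functor.whiskeringLeft _ _ _).obj T.op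
  (∀ F, IsDisc J' F → IsDisc J (T ⋙ F) ∧
    (F.op ⋙ coyoneda).flip ⋙ R = ((T ⋙ F).op ⋙ coyoneda).flip) ∧
  ∀ id, IsIdent J id → ∀ id', IsIdent J' id' →
    IsGpdEquiv J id (ι J' ⋙ R) (gwe J' id') (gfib J') (trunc J' id')

end

/-- Homotopy `m`-types: `π_i(Y, y)` is trivial for all `y` and all `i > m`. -/
def htype (m : ℕ) : ObjectProperty CompactlyGenerated.{0, 0} := fun Y =>
  ∀ (y : Y) i, m < i → Subsingleton (HomotopyGroup (Fin i) Y y)

/-- The weak homotopy equivalences between compactly generated spaces. -/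
abbrev wheT : MorphismProperty CompactlyGenerated.{0, 0} :=
  whe.inverseImage CompactlyGenerated.compactlyGeneratedToTop

/-- The homotopy lifting property of `p` with respect to `T`. -/
def HLP (T : Type) [TopologicalSpace T] {Y Z : TopCat.{0}} (p : Y ⟶ Z) : Prop :=
  ∀ (h : C(T × unitInterval, Z)) (u : C(T, Y)), (∀ x, p.hom (u x) = h (x, 0)) →
    ∃ g : C(T × unitInterval, Y), (∀ x, g (x, 0) = u x) ∧ ∀ x, p.hom (g x) = h x

/-- Serre fibrations. -/
def serre : MorphismProperty CompactlyGenerated.{0, 0} := fun _ _ p =>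
  ∀ n, HLP (Metric.closedBall (0 : EuclideanSpace ℝ (Fin n)) 1)
    (CompactlyGenerated.compactlyGeneratedToTop.map p)

end Vale.Agent.P259.Hyp
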