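import Vale.Agent.P259.Bdl.B1
import Vale.Agent.P259.H615.Defs

/-!
Morphisms of globular extensions: existence of morphisms between coherators, restriction of
`∞`-groupoids and of disc functors along such a morphism.
-/

open CategoryTheory Opposite

namespace Vale.Agent.P259.H615

open StmtB Theta0

/-! ### Existence of morphisms -/

/-- The image of a parallel pair. -/
def mapPair {A B : Ext} (K : Map A B) (π : Pair A) : Pair B where
  dim := π.dim
  cod := π.cod
  arr b := K.m (π.arr b)
  par ι j lt := by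
    rw [← K.str (.face ι lt), ← K.comp, ← K.comp, π.par ι lt]

/-- There is a morphism from every extension with a tower to every extension with all lifts. -/
theorem exists_map {A B : Ext} (D : Tower A) (hB : ∀ π : Pair B, ∃ f, IsLift π.arr f) :
    Nonempty (Map A B) := by
  choose l hl using hB
  have step : ∀ n (K : Map (D.B n) B), ∃ K' : Map (D.B n.succ) B, Tri (D.F n) K' K := by
    intro n K
    obtain ⟨L, ⟨hL, -⟩, -⟩ := (D.adj n).univ K (fun {π} _ => l (mapPair K π))
      (fun {π} _ => hl (mapPair K π))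
    exact ⟨L, hL⟩
  choose s hs using step
  let K : ∀ n, Map (D.B n) B := fun n => Nat.rec (D.zero B).exists.choose (fun n K => s n K) n
  obtain ⟨L, -, -⟩ := D.colim K (fun n => hs n (K n))
  exact ⟨L⟩

section

variable {Q Q' : Type} [SmallCategory Q] [SmallCategory Q'] {J : Glob Q} {J' : Glob Q'}

lemma heq_map (M : Map ⟨Q, J⟩ ⟨Q', J'⟩) {S U S' U' : Theta0} (hS : S' = S) (hU : U' = U)
    (p : J.o S' = J.o S) (q : J.o U = J.o U') (x : Str S U) :
    HEq (M.m (S := S') (T := U') (eqToHom p ≫ J.s x ≫ eqToHom q)) (J'.s x) := by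
  subst hS
  subst hU
  have h : (eqToHom p ≫ J.s x ≫ eqToHom q) = J.s x := by simp
  have h1 := M.str x
  rw [h]
  exact heq_of_eq h1

/-- The functor defined by a morphism of extensions. -/
theorem exists_isMor (M : Map ⟨Q, J⟩ ⟨Q', J'⟩) : ∃ T, IsMor J J' T := by
  let e : Theta0 ≃ Q := Equiv.ofBijective J.o J.bij
  have he : ∀ q, J.o (e.symm q) = q := fun q => e.apply_symm_apply q
  have he' : ∀ S, e.symm (J.o S) = S := fun S => e.symm_apply_apply S
  let T : Q ⥤ Q' :=
    { obj := fun q => J'.o (e.symm q)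
      map := fun {q r} f =>
        M.m (S := e.symm q) (T := e.symm r) (eqToHom (he q) ≫ f ≫ eqToHom (he r).symm)
      map_id := fun q => by
        have h : (eqToHom (he q) ≫ 𝟙 q ≫ eqToHom (he q).symm) = 𝟙 (J.o (e.symm q)) := by simp
        rw [h]
        exact M.id (e.symm q)
      map_comp := fun {q r t} f g => by
        have h : (eqToHom (he q) ≫ (f ≫ g) ≫ eqToHom (he t).symm) =
            (eqToHom (he q) ≫ f ≫ eqToHom (he r).symm) ≫
              (eqToHom (he r) ≫ g ≫ eqToHom (he t).symm) := by simp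
        rw [h]
        exact M.comp (S := e.symm q) (T := e.symm r) (U := e.symm t) _ _ }
  refine ⟨T, ⟨fun S => congrArg J'.o (he' S), fun {S U} x => ?_⟩⟩
  exact heq_map M (he' S) (he' U) _ _ x

/-- Any two coherators are connected by a morphism. -/
theorem exists_mor (hJ : IsCoherator ⟨Q, J⟩) (hJ' : IsCoherator ⟨Q', J'⟩) :
    ∃ T, IsMor J J' T := by
  obtain ⟨M⟩ := exists_map hJ.1.some hJ'.2
  exact exists_isMor M

/-- Reduction to the case of a strict morphism. -/
theorem strictify {motive : Glob Q' → Prop} {T : Q ⥤ Q'} (hT : IsMor J J' T)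
    (h : ∀ bij ff last glue, motive
      ⟨fun S => T.obj (J.o S), bij, fun {_ _} x => T.map (J.s x), ff, last, glue⟩) :
    motive J' := by
  obtain ⟨o, bij, s, ff, last, glue⟩ := J'
  obtain ⟨h1, h2⟩ := hT
  obtain rfl : (fun S => T.obj (J.o S)) = o := funext h1
  obtain rfl : @s = fun {_ _} x => T.map (J.s x) := by
    funext S U x
    exact (eq_of_heq (h2 x)).symm
  exact h bij ff last glue

end

/-! ### Restriction -/

section

variable {Q : Type} [SmallCategory Q]

/-- Groupoids in terms of elements. -/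
lemma gl_iff' (J : Glob Q) (X : Qᵒᵖ ⥤ Type) : Gl J yoneda X ↔
    Glues fun {S U} (x : Str S U) (y : X.obj (op (J.o U))) => X.map (J.s x).op y := by
  constructor
  · intro h _ t j n lt le
    exact (S.gl_iff (A := Ext.to ⟨Q, J⟩) X).1 (fun {_} t j n lt le => h t j n lt le) t j n lt le
  · intro h _ t j n lt le
    exact (S.gl_iff (A := Ext.to ⟨Q, J⟩) X).2 (fun {_} t j n lt le => h t j n lt le) t j n lt le

variable {Q' : Type} [SmallCategory Q']

/-- The comparison of cells. -/
def cells (T : Q ⥤ Q') (X : Q'ᵒᵖ ⥤ Type) (q : Q) :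
    (yoneda.obj (T.obj q) ⟶ X) ≃ (yoneda.obj q ⟶ T.op ⋙ X) :=
  yonedaEquiv.trans (yonedaEquiv (X := q) (F := T.op ⋙ X)).symm

lemma cells_map (T : Q ⥤ Q') (X : Q'ᵒᵖ ⥤ Type) {q r : Q} (f : q ⟶ r)
    (y : yoneda.obj (T.obj r) ⟶ X) :
    cells T X q (yoneda.map (T.map f) ≫ y) = yoneda.map f ≫ cells T X r y := by
  apply yonedaEquiv.injective
  rw [← yonedaEquiv_naturality]
  simp only [cells, Equiv.trans_apply, Equiv.apply_symm_apply]
  rw [← yonedaEquiv_naturality]
  rfl

lemma cells_comp (T : Q ⥤ Q') {X Y : Q'ᵒᵖ ⥤ Type} (f : X ⟶ Y) {q : Q}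
    (y : yoneda.obj (T.obj q) ⟶ X) :
    cells T Y q (y ≫ f) = cells T X q y ≫ Functor.whiskerLeft T.op f := by
  apply yonedaEquiv.injective
  simp only [cells, Equiv.trans_apply, Equiv.apply_symm_apply]
  rw [yonedaEquiv_comp, yonedaEquiv_comp]
  simp

variable {J : Glob Q} {J' : Glob Q'} {T : Q ⥤ Q'} (hT : IsMor J J' T)

include hT

theorem gl_restr (X : Q'ᵒᵖ ⥤ Type) (hX : Gl J' yoneda X) : Gl J yoneda (T.op ⋙ X) := by
  revert hX
  refine strictify (motive := fun J' => Gl J' yoneda X → Gl J yoneda (T.op ⋙ X)) hT ?_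
  intro bij ff last glue
  rw [gl_iff', gl_iff']
  exact fun h {_} => h

theorem isDisc_restr {F : Q' ⥤ CompactlyGenerated.{0, 0}} (hF : IsDisc J' F) :
    IsDisc J (T ⋙ F) := by
  revert hF
  refine strictify (motive := fun J' => IsDisc J' F → IsDisc J (T ⋙ F)) hT ?_
  intro bij ff last glue h
  exact ⟨fun Y {_} => h.1 Y, h.2⟩

end

end Vale.Agent.P259.H615
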