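import Vale.Agent.P259.H615.Inv

/-!
Equivalences of homotopy theories between full subcategories; truncated `∞`-groupoids.
-/

open CategoryTheory Opposite

namespace Vale.Agent.P259.H615

open StmtB Theta0

section

variable {K L M : Type 1} [Category.{0} K] [Category.{0} L] [Category.{0} M]

theorem hoEqOn_of_zig {R : K ⥤ L} {W : MorphismProperty K} {V : MorphismProperty L}
    (h : H304.Zig R W V) {P : ObjectProperty K} {P' : ObjectProperty L}
    (hP : P'.inverseImage R = P) (hP' : ∀ {X Y : L} (f : X ⟶ Y), V f → (P' X ↔ P' Y)) :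
    HoEqOn R P P' W V := by
  have h1 : ∀ Y, P' (R.obj Y) ↔ P Y := fun Y => iff_of_eq (congrFun hP Y)
  have h2 : ∀ Y : P.FullSubcategory, P' ((P.ι ⋙ R).obj Y) := fun Y => (h1 _).2 Y.property
  exact ⟨hP, h2, (h.restrict P P' h1 hP' h2).hoEq⟩

theorem hoEqOn_of_comp {R : K ⥤ L} {R' : L ⥤ M} {W : MorphismProperty K}
    {V : MorphismProperty L} {U : MorphismProperty M} {P : ObjectProperty K}
    {P' : ObjectProperty L} {P'' : ObjectProperty M} (h1 : HoEqOn R P P' W V)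
    (h2 : HoEqOn (R ⋙ R') P P'' W U) (hU : U.inverseImage R' = V)
    (hP : P''.inverseImage R' = P') : HoEqOn R' P' P'' V U := by
  obtain ⟨-, h3, h4⟩ := h1
  obtain ⟨-, h5, h6⟩ := h2
  have h7 : ∀ Y, P'' (R'.obj Y) ↔ P' Y := fun Y => iff_of_eq (congrFun hP Y)
  have h8 : ∀ Y : P'.FullSubcategory, P'' ((P'.ι ⋙ R').obj Y) := fun Y => (h7 _).2 Y.property
  refine ⟨hP, h8, ?_⟩
  refine H304.HoEq.of_comp h4 (R₂ := P''.lift (P'.ι ⋙ R') h8) h6 ?_
  rw [← hU]
  rfl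

end

section

variable {Q : Type} [SmallCategory Q]

/-- The invariance of truncatedness, as a hypothesis. -/
def TruncInv (J : Glob Q) (id : ∀ n, Ext.H ⟨Q, J⟩ (disc n) (disc 0)) (m : ℕ) : Prop :=
  ∀ {X Y : Gpd J} (f : X ⟶ Y), gwe J id f → (trunc J id m X ↔ trunc J id m Y)

/-- The comparison of truncated groupoids and homotopy types, as a hypothesis. -/
def TruncTop (J : Glob Q) (id : ∀ n, Ext.H ⟨Q, J⟩ (disc n) (disc 0)) (m : ℕ) : Prop :=
  ∀ F, IsDisc J F → ∀ h Y, trunc J id m ((toGpd J (F.op ⋙ coyoneda).flip h).obj Y) ↔ htype m Y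

variable {Q' : Type} [SmallCategory Q'] {J : Glob Q} {J' : Glob Q'} {T : Q ⥤ Q'}

theorem trunc_restr (hT : IsMor J J' T) (hJ : IsCoherator ⟨Q, J⟩) (hJ' : IsCoherator ⟨Q', J'⟩)
    {id : ∀ n, Ext.H ⟨Q, J⟩ (disc n) (disc 0)} (hid : IsIdent J id)
    {id' : ∀ n, Ext.H ⟨Q', J'⟩ (disc n) (disc 0)} (hid' : IsIdent J' id')
    (h : ∀ X : Gpd J', Gl J yoneda (T.op ⋙ X.obj)) (m : ℕ)
    (a : TruncInv J id m) (a' : TruncInv J' id' m) (b : TruncTop J id m)
    (b' : TruncTop J' id' m) :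
    (trunc J id m).inverseImage (toGpd J (ObjectProperty.ι (C := Q'ᵒᵖ ⥤ Type) (Gl J' yoneda) ⋙
      (Functor.whiskeringLeft _ _ _).obj T.op) h) = trunc J' id' m := by
  obtain ⟨F, hF⟩ := (main.2 J' hJ').1
  have hF2 : ∀ Y, Gl J' yoneda ((F.op ⋙ coyoneda).flip.obj Y) :=
    (main.2 J' hJ').2 F hF id' hid' |>.choose
  obtain ⟨-, G, R, q, r, -, -, hq, hr, -⟩ := zig_Pi J' hJ' hF hid' hF2
  have hW := (hoEq_restr hT hJ hJ' hid hid' h).1
  have hW' : ∀ {X Y : Gpd J'} (f : X ⟶ Y), gwe J' id' f → gwe J id ((toGpd J (ObjectProperty.ι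
      (C := Q'ᵒᵖ ⥤ Type) (Gl J' yoneda) ⋙ (Functor.whiskeringLeft _ _ _).obj T.op) h).map f) := by
    intro X Y f hf
    rw [← hW] at hf
    exact hf
  funext X
  apply propext
  have h1 := (b' F hF hF2 (G.obj X)).symm.trans
    ((a' (r.app X) (hr X)).symm.trans (a' (q.app X) (hq X)))
  have h2 := (b _ (isDisc_restr hT hF) (fun Y => h ⟨_, hF2 Y⟩) (G.obj X)).symm.trans
    ((a _ (hW' _ (hr X))).symm.trans (a _ (hW' _ (hq X))))
  exact h2.symm.trans h1

/-- Restriction along a morphism of coherators is an equivalence of homotopy theories between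
truncated groupoids. -/
theorem hoEqOn_restr (hT : IsMor J J' T) (hJ : IsCoherator ⟨Q, J⟩) (hJ' : IsCoherator ⟨Q', J'⟩)
    {id : ∀ n, Ext.H ⟨Q, J⟩ (disc n) (disc 0)} (hid : IsIdent J id)
    {id' : ∀ n, Ext.H ⟨Q', J'⟩ (disc n) (disc 0)} (hid' : IsIdent J' id')
    (h : ∀ X : Gpd J', Gl J yoneda (T.op ⋙ X.obj)) (m : ℕ)
    (a : TruncInv J id m) (a' : TruncInv J' id' m) (b : TruncTop J id m)
    (b' : TruncTop J' id' m) :
    HoEqOn (toGpd J (ObjectProperty.ι (C := Q'ᵒᵖ ⥤ Type) (Gl J' yoneda) ⋙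
      (Functor.whiskeringLeft _ _ _).obj T.op) h) (trunc J' id' m) (trunc J id m)
        (gwe J' id') (gwe J id) := by
  obtain ⟨F, hF⟩ := (main.2 J' hJ').1
  have hF2 : ∀ Y, Gl J' yoneda ((F.op ⋙ coyoneda).flip.obj Y) :=
    (main.2 J' hJ').2 F hF id' hid' |>.choose
  have h1 := hoEqOn_of_zig (zig_Pi J' hJ' hF hid' hF2) (P := htype m) (P' := trunc J' id' m)
    (funext fun Y => propext (b' F hF hF2 Y)) a'
  have hF3 := isDisc_restr hT hF
  have h2 := hoEqOn_of_zig (zig_Pi J hJ hF3 hid (fun Y => h ⟨_, hF2 Y⟩)) (P := htype m)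
    (P' := trunc J id m) (funext fun Y => propext (b _ hF3 _ Y)) a
  exact hoEqOn_of_comp h1 h2 (hoEq_restr hT hJ hJ' hid hid' h).1
    (trunc_restr hT hJ hJ' hid hid' h m a a' b b')

end

end Vale.Agent.P259.H615
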